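import Vale.Agent.P318.H308.Main6
import Vale.Agent.P318.H918.CodeA
import Vale.Agent.P318.H770.Ext
import Vale.Agent.P318.H249.Sample
import Vale.Agent.P318.H40.Low
import Vale.Agent.P318.H986.Global
import Vale.Agent.P318.H653.NodeFull

/-!
# A lower bound for the integrality gap of the Goemans-Linial relaxation (uniform demands)

Capacities on `n` vertices are functions `c : Fin n → Fin n → ℝ`; sums over unordered pairs are
written as half of the sum over ordered pairs.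
-/

open Finset

namespace Vale.Agent.Results.P318.GoemansLinialGap

/-- Nonnegative symmetric capacities with zero diagonal. -/
def IsCapacity {n : ℕ} (c : Fin n → Fin n → ℝ) : Prop :=
  (∀ i j, 0 ≤ c i j) ∧ (∀ i j, c i j = c j i) ∧ ∀ i, c i i = 0

/-- The capacity between `S` and its complement. -/
def cutCap {n : ℕ} (c : Fin n → Fin n → ℝ) (S : Finset (Fin n)) : ℝ := ∑ i ∈ S, ∑ j ∈ Sᶜ, c i j

/-- `Φ(c)`: the minimum over nonempty proper `S` of `cutCap c S / (|S| (n - |S|))`. -/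
noncomputable def phi {n : ℕ} (c : Fin n → Fin n → ℝ) : ℝ :=
  sInf {r : ℝ | ∃ S : Finset (Fin n), S.Nonempty ∧ Sᶜ.Nonempty ∧
    r = cutCap c S / ((S.card : ℝ) * ((Sᶜ).card : ℝ))}

/-- A negative-type semimetric: squared Euclidean distances of vectors in `ℝ^n`, with all
triangle inequalities. -/
def IsNegTypeSemimetric {n : ℕ} (d : Fin n → Fin n → ℝ) : Prop :=
  (∃ x : Fin n → EuclideanSpace ℝ (Fin n), ∀ i j, d i j = ‖x i - x j‖ ^ 2) ∧
    ∀ i j k, d i k ≤ d i j + d j k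

/-- The Goemans-Linial relaxation `GL(c)`. -/
noncomputable def glValue {n : ℕ} (c : Fin n → Fin n → ℝ) : ℝ :=
  sInf {r : ℝ | ∃ d : Fin n → Fin n → ℝ, IsNegTypeSemimetric d ∧ (∑ i, ∑ j, d i j) / 2 = 1 ∧
    r = (∑ i, ∑ j, c i j * d i j) / 2}

/-- The ratios `Φ(c) / GL(c)` of all capacities on `n` vertices with `GL(c) > 0`. -/
def ratios (n : ℕ) : Set ℝ :=
  {r : ℝ | ∃ c : Fin n → Fin n → ℝ, IsCapacity c ∧ 0 < glValue c ∧ r = phi c / glValue c}

/-- The integrality gap `g(n)`. -/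
noncomputable def g (n : ℕ) : ℝ := sSup (ratios n)

theorem ratios_eq (n : ℕ) : ratios n = {r : ℝ | ∃ c : Fin n → Fin n → ℝ,
    (∀ i j, 0 ≤ c i j) ∧ (∀ i j, c i j = c j i) ∧ (∀ i, c i i = 0) ∧
    0 < Vale.Agent.P318.H867.glValue c ∧
    r = Vale.Agent.P318.H867.phi c / Vale.Agent.P318.H867.glValue c} := by
  ext r
  constructor
  · rintro ⟨c, ⟨h1, h2, h3⟩, h4, h5⟩
    exact ⟨c, h1, h2, h3, h4, h5⟩
  · rintro ⟨c, h1, h2, h3, h4, h5⟩
    exact ⟨c, ⟨h1, h2, h3⟩, h4, h5⟩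

/-- From the code to the theorem. -/
theorem of_code (hcode : Vale.Agent.P318.H6.SpecCODE6) : (∀ n, BddAbove (ratios n)) ∧
    ∃ c₀ : ℝ, 0 < c₀ ∧ ∃ n₀ : ℕ, ∀ n ≥ n₀,
      Real.log n ^ c₀ ≤ g n ∧
      ∃ c : Fin n → Fin n → ℝ, IsCapacity c ∧ 0 < glValue c ∧
        Real.log n ^ c₀ * glValue c ≤ phi c := by
  have hb : ∀ n, BddAbove (ratios n) := fun n => by
    rw [ratios_eq]
    exact Vale.Agent.P318.H308.gap_bddAbove n
  refine ⟨hb, ?_⟩
  obtain ⟨c₀, hc₀, n₀, h⟩ := Vale.Agent.P318.H308.main6_of_code hcode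
  refine ⟨c₀, hc₀, n₀, fun n hn => ?_⟩
  obtain ⟨c, ⟨h1, h2, h3⟩, h4, h5⟩ := h n hn
  have h4' : 0 < glValue c := h4
  have h5' : Real.log n ^ c₀ * glValue c ≤ phi c := h5
  refine ⟨?_, c, ⟨h2, h1, h3⟩, h4', h5'⟩
  refine le_trans ?_ (le_csSup (hb n) ⟨c, ⟨h2, h1, h3⟩, h4', rfl⟩)
  rwa [le_div_iff₀ h4']

open Vale.Agent.P318 in
theorem spec_code : H6.SpecCODE6 :=
  H918.spec_code6 H770.spec_tree H249.spec_sample H40.spec_low2
    (H986.spec_global H653.spec_node_full H40.spec_low)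

/-- For some `c₀ > 0` and all large `n`, `g(n) ≥ (log n)^c₀`; the supremum `g(n)` is over a bounded
set, and the bound is attained by capacities on `n` vertices. -/
theorem result : (∀ n, BddAbove (ratios n)) ∧
    ∃ c₀ : ℝ, 0 < c₀ ∧ ∃ n₀ : ℕ, ∀ n ≥ n₀,
      Real.log n ^ c₀ ≤ g n ∧
      ∃ c : Fin n → Fin n → ℝ, IsCapacity c ∧ 0 < glValue c ∧
        Real.log n ^ c₀ * glValue c ≤ phi c :=
  of_code spec_code

end Vale.Agent.Results.P318.GoemansLinialGap
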